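import Mathlib

namespace Vale.Agent.Results.P344.ThreeN

open Finset Polynomial

theorem poly_zero (n : ℕ) (hn : 0 < n) (ζ : ℂ) (hζ : IsPrimitiveRoot ζ n) (q : Fin n → ℚ)
    (h : ∀ e ∈ n.divisors, ∑ j : Fin n, (q j : ℂ) * (ζ ^ (n / e)) ^ (j : ℕ) = 0) : q = 0 := by
  set Q : ℚ[X] := ∑ j : Fin n, C (q j) * X ^ (j : ℕ) with hQ
  have hdeg : Q.degree < n := degree_sum_fin_lt q
  have hdvd : ∀ e ∈ n.divisors, cyclotomic e ℚ ∣ Q := by
    intro e he
    have hen : e ∣ n := Nat.dvd_of_mem_divisors he
    have hepos : 0 < e := Nat.pos_of_mem_divisors he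
    have hprim : IsPrimitiveRoot (ζ ^ (n / e)) e :=
      IsPrimitiveRoot.pow hn hζ (Nat.div_mul_cancel hen).symm
    rw [cyclotomic_eq_minpoly_rat hprim hepos]
    apply minpoly.dvd
    rw [hQ, map_sum]
    rw [← h e he]
    apply Finset.sum_congr rfl
    intro j _
    simp
  have hprod : (X ^ n - 1 : ℚ[X]) ∣ Q := by
    rw [← prod_cyclotomic_eq_X_pow_sub_one hn ℚ]
    apply Finset.prod_dvd_of_coprime _ hdvd
    intro a _ b _ hab
    exact cyclotomic.isCoprime_rat hab
  have hQ0 : Q = 0 := by
    apply eq_zero_of_dvd_of_degree_lt hprod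
    have : (X ^ n - 1 : ℚ[X]).degree = n := by
      have := degree_X_pow_sub_C hn (1 : ℚ)
      simpa using this
    rw [this]
    exact hdeg
  funext j
  have := congrArg (fun p => p.coeff (j : ℕ)) hQ0
  simp only [hQ, finsetSum_coeff, coeff_C_mul, coeff_X_pow, coeff_zero] at this
  rw [Finset.sum_eq_single j] at this
  · simpa using this
  · intro b _ hb
    have : (j : ℕ) ≠ (b : ℕ) := fun h => hb (Fin.ext h.symm)
    simp [this]
  · simp

theorem rank_bound (n : ℕ) (hn : 0 < n) (ζ : ℂ) (hζ : IsPrimitiveRoot ζ n)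
    (T : Finset (Fin n → ℂ))
    (h : ∀ j : Fin n, (fun k : Fin n => ζ ^ ((j : ℕ) * (k : ℕ))) ∈
      Submodule.span ℚ (Set.range (fun k : Fin n => (Pi.single k (1 : ℂ) : Fin n → ℂ)) ∪ ↑T)) :
    n ≤ T.card + n.divisors.card := by
  classical
  set e : Fin n → (Fin n → ℂ) := fun k => Pi.single k (1 : ℂ) with he
  set y : Fin n → (Fin n → ℂ) := fun j => fun k : Fin n => ζ ^ ((j : ℕ) * (k : ℕ)) with hy
  set G : Finset (Fin n → ℂ) := Finset.image e Finset.univ ∪ T with hG
  have hGset : (Set.range e ∪ ↑T : Set (Fin n → ℂ)) = ↑G := by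
    rw [hG]; push_cast; simp
  rw [hGset] at h
  set M := Submodule.span ℚ (G : Set (Fin n → ℂ)) with hM
  have hMfin : Module.Finite ℚ M := FiniteDimensional.span_finset ℚ G
  have hMrank : Module.finrank ℚ M ≤ n + T.card := by
    calc Module.finrank ℚ M ≤ G.card := finrank_span_finset_le_card G
      _ ≤ (Finset.image e Finset.univ).card + T.card := Finset.card_union_le _ _
      _ ≤ n + T.card := by
        have : (Finset.image e Finset.univ).card ≤ (Finset.univ : Finset (Fin n)).card :=
          Finset.card_image_le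
        simpa using this
  set Θ : ((Fin n → ℚ) × (Fin n → ℚ)) →ₗ[ℚ] (Fin n → ℂ) :=
    (Fintype.linearCombination ℚ e).coprod (Fintype.linearCombination ℚ y) with hΘ
  have hΘapp : ∀ a q k, Θ (a, q) k = (a k : ℂ) + ∑ j : Fin n, (q j : ℂ) * ζ ^ ((j : ℕ) * (k : ℕ)) := by
    intro a q k
    simp only [hΘ, LinearMap.coprod_apply, Fintype.linearCombination_apply, Pi.add_apply,
      Finset.sum_apply, Pi.smul_apply, he, hy]
    congr 1
    · rw [Finset.sum_eq_single k]
      · simp [Rat.smul_def]
      · intro b _ hb
        simp [hb.symm]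
      · simp
  have hrange : LinearMap.range Θ ≤ M := by
    rintro _ ⟨⟨a, q⟩, rfl⟩
    simp only [hΘ, LinearMap.coprod_apply, Fintype.linearCombination_apply]
    apply Submodule.add_mem
    · apply Submodule.sum_mem
      intro k _
      apply Submodule.smul_mem
      apply Submodule.subset_span
      simp [hG]
    · apply Submodule.sum_mem
      intro j _
      apply Submodule.smul_mem
      exact h j
  have h1 : Module.finrank ℚ (LinearMap.range Θ) ≤ n + T.card :=
    le_trans (Submodule.finrank_mono hrange) hMrank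
  have h2 := LinearMap.finrank_range_add_finrank_ker Θ
  have h3 : Module.finrank ℚ ((Fin n → ℚ) × (Fin n → ℚ)) = n + n := by
    simp
  -- the kernel injects into functions on the divisors
  set Ψ : (LinearMap.ker Θ) →ₗ[ℚ] (n.divisors → ℚ) :=
    { toFun := fun x => fun d => x.1.1 ⟨(n / d.1) % n, Nat.mod_lt _ hn⟩
      map_add' := by intro x z; rfl
      map_smul' := by intro c x; rfl } with hΨ
  have hinj : Function.Injective Ψ := by
    rw [← LinearMap.ker_eq_bot, LinearMap.ker_eq_bot']
    rintro ⟨⟨a, q⟩, hx⟩ hz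
    have hx' : Θ (a, q) = 0 := hx
    have hq : q = 0 := by
      apply poly_zero n hn ζ hζ q
      intro d hd
      have h5 := congrFun hx' ⟨(n / d) % n, Nat.mod_lt _ hn⟩
      rw [hΘapp] at h5
      have h6 : a ⟨(n / d) % n, Nat.mod_lt _ hn⟩ = 0 := congrFun hz ⟨d, hd⟩
      rw [h6] at h5
      simp only [Rat.cast_zero, zero_add, Pi.zero_apply] at h5
      rw [← h5]
      apply Finset.sum_congr rfl
      intro j _
      congr 1
      have h7 : ζ ^ (n / d % n) = ζ ^ (n / d) := by
        conv_rhs => rw [← Nat.div_add_mod (n / d) n, pow_add, pow_mul, hζ.pow_eq_one, one_pow,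
          one_mul]
      rw [mul_comm (j : ℕ), pow_mul, h7]
    have ha : a = 0 := by
      funext k
      have h5 := congrFun hx' k
      rw [hΘapp, hq] at h5
      simpa using h5
    simp [ha, hq]
  have h4 : Module.finrank ℚ (LinearMap.ker Θ) ≤ n.divisors.card := by
    have := LinearMap.finrank_le_finrank_of_injective hinj
    simpa using this
  omega

/-- A linear form `∑ k, w k * x k` in the inputs `x 0, ..., x (n-1)` is represented by its
coefficient vector `w : Fin n → ℂ`.  `Avail n l w` says that `w` may be read by the next gate: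
it is the constant `0`, one of the inputs `x k`, or one of the previously computed values
(the members of the list `l`). -/
def Avail (n : ℕ) (l : List (Fin n → ℂ)) (w : Fin n → ℂ) : Prop :=
  w = 0 ∨ (∃ k : Fin n, w = Pi.single k 1) ∨ w ∈ l

/-- `Circuit n l`: the list `l` (most recent gate first) is the list of values computed by the
gates of a linear circuit on `n` inputs; every gate computes `u + v`, `u - v` or `c • u` from
values available before it.  The number of gates is `l.length`. -/
inductive Circuit (n : ℕ) : List (Fin n → ℂ) → Prop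
  | nil : Circuit n []
  | add (l : List (Fin n → ℂ)) (u v : Fin n → ℂ) :
      Circuit n l → Avail n l u → Avail n l v → Circuit n ((u + v) :: l)
  | sub (l : List (Fin n → ℂ)) (u v : Fin n → ℂ) :
      Circuit n l → Avail n l u → Avail n l v → Circuit n ((u - v) :: l)
  | smul (l : List (Fin n → ℂ)) (c : ℂ) (u : Fin n → ℂ) :
      Circuit n l → Avail n l u → Circuit n ((c • u) :: l)

def FullSupp {n : ℕ} (w : Fin n → ℂ) : Prop := ∀ i, w i ≠ 0

def OneBlock {n : ℕ} (blk : Fin n → Fin n) (w : Fin n → ℂ) : Prop :=
  ∀ i j, w i ≠ 0 → w j ≠ 0 → blk i = blk j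

def Invar (n : ℕ) (l : List (Fin n → ℂ)) : Prop :=
  ∃ (A1 A2 S : ℕ) (T : Finset (Fin n → ℂ)) (blk : Fin n → Fin n) (C : Finset (Fin n → ℂ)),
    A1 + A2 + S = l.length ∧ T.card ≤ S ∧
    (∀ w ∈ l, w ∈ Submodule.span ℚ
      (Set.range (fun k : Fin n => (Pi.single k (1 : ℂ) : Fin n → ℂ)) ∪ ↑T)) ∧
    n ≤ (image blk univ).card + A1 ∧ (∀ w ∈ l, ¬ FullSupp w → OneBlock blk w) ∧
    C.card ≤ A2 ∧ (∀ w ∈ l, FullSupp w → ∃ c ∈ C, ∃ a : ℂ, w = a • c) ∧
    ((∃ w ∈ l, FullSupp w) → (image blk univ).card ≤ 2)

theorem avail_span {n : ℕ} {l : List (Fin n → ℂ)} {u : Fin n → ℂ} (T : Set (Fin n → ℂ))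
    (hu : Avail n l u)
    (h : ∀ w ∈ l, w ∈ Submodule.span ℚ
      (Set.range (fun k : Fin n => (Pi.single k (1 : ℂ) : Fin n → ℂ)) ∪ T)) :
    u ∈ Submodule.span ℚ
      (Set.range (fun k : Fin n => (Pi.single k (1 : ℂ) : Fin n → ℂ)) ∪ T) := by
  rcases hu with rfl | ⟨k, rfl⟩ | hu
  · exact Submodule.zero_mem _
  · apply Submodule.subset_span
    left
    exact ⟨k, rfl⟩
  · exact h u hu

theorem avail_full {n : ℕ} (hn : 2 ≤ n) {l : List (Fin n → ℂ)} {u : Fin n → ℂ}
    (hu : Avail n l u) (hf : FullSupp u) : u ∈ l := by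
  rcases hu with rfl | ⟨k, rfl⟩ | hu
  · exact absurd rfl (hf ⟨0, by omega⟩)
  · exfalso
    obtain ⟨i, hi⟩ : ∃ i : Fin n, i ≠ k := by
      by_cases hk : (k : ℕ) = 0
      · exact ⟨⟨1, by omega⟩, fun h => by have := congrArg Fin.val h; simp at this; omega⟩
      · exact ⟨⟨0, by omega⟩, fun h => by have := congrArg Fin.val h; simp at this; omega⟩
    exact hf i (by simp [hi])
  · exact hu

theorem avail_mono {n : ℕ} {l : List (Fin n → ℂ)} {u : Fin n → ℂ} (blk : Fin n → Fin n)
    (hu : Avail n l u) (h : ∀ w ∈ l, ¬ FullSupp w → OneBlock blk w) (hf : ¬ FullSupp u) : OneBlock blk u := by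
  rcases hu with rfl | ⟨k, rfl⟩ | hu
  · intro i j hi; exact absurd rfl hi
  · intro i j hi hj
    have h1 : i = k := by
      by_contra hne
      exact hi (by simp [hne])
    have h2 : j = k := by
      by_contra hne
      exact hj (by simp [hne])
    rw [h1, h2]
  · exact h u hu hf

theorem merge {n : ℕ} (blk : Fin n → Fin n) (u v w : Fin n → ℂ) (hu : OneBlock blk u)
    (hv : OneBlock blk v) (hw : ∀ i, w i ≠ 0 → u i ≠ 0 ∨ v i ≠ 0) :
    ∃ blk' : Fin n → Fin n, (∀ z, OneBlock blk z → OneBlock blk' z) ∧ OneBlock blk' w ∧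
      (image blk univ).card ≤ (image blk' univ).card + 1 ∧
      (image blk' univ).card ≤ (image blk univ).card := by
  classical
  by_cases h1 : ∃ iu, u iu ≠ 0
  · by_cases h2 : ∃ iv, v iv ≠ 0
    · obtain ⟨iu, hiu⟩ := h1
      obtain ⟨iv, hiv⟩ := h2
      refine ⟨fun i => if blk i = blk iv then blk iu else blk i, ?_, ?_, ?_, ?_⟩
      · intro z hz i j hi hj
        simp only [hz i j hi hj]
      · have key : ∀ i, w i ≠ 0 → (if blk i = blk iv then blk iu else blk i) = blk iu := by
          intro i hi
          rcases hw i hi with h | h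
          · have := hu i iu h hiu
            split_ifs <;> simp [this]
          · have := hv i iv h hiv
            simp [this]
        intro i j hi hj
        simp only [key i hi, key j hj]
      · have hsub : (image blk univ).erase (blk iv) ⊆
            image (fun i => if blk i = blk iv then blk iu else blk i) univ := by
          intro b hb
          rw [mem_erase, mem_image] at hb
          obtain ⟨hne, i, _, rfl⟩ := hb
          rw [mem_image]
          exact ⟨i, mem_univ _, by simp [hne]⟩
        have h3 := card_le_card hsub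
        have h4 : ((image blk univ).erase (blk iv)).card = (image blk univ).card - 1 :=
          card_erase_of_mem (mem_image_of_mem _ (mem_univ _))
        omega
      · apply card_le_card
        intro b hb
        rw [mem_image] at hb
        obtain ⟨i, _, rfl⟩ := hb
        split_ifs
        · exact mem_image_of_mem _ (mem_univ _)
        · exact mem_image_of_mem _ (mem_univ _)
    · push Not at h2
      refine ⟨blk, fun z hz => hz, ?_, by omega, le_refl _⟩
      intro i j hi hj
      have hi' : u i ≠ 0 := by
        rcases hw i hi with h | h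
        · exact h
        · exact absurd (h2 i) h
      have hj' : u j ≠ 0 := by
        rcases hw j hj with h | h
        · exact h
        · exact absurd (h2 j) h
      exact hu i j hi' hj'
  · push Not at h1
    refine ⟨blk, fun z hz => hz, ?_, by omega, le_refl _⟩
    intro i j hi hj
    have hi' : v i ≠ 0 := by
      rcases hw i hi with h | h
      · exact absurd (h1 i) h
      · exact h
    have hj' : v j ≠ 0 := by
      rcases hw j hj with h | h
      · exact absurd (h1 j) h
      · exact h
    exact hv i j hi' hj'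

theorem step_additive {n : ℕ} (hn : 2 ≤ n) (l : List (Fin n → ℂ)) (u v w : Fin n → ℂ)
    (hspan : ∀ M : Submodule ℚ (Fin n → ℂ), u ∈ M → v ∈ M → w ∈ M)
    (hw : ∀ i, w i ≠ 0 → u i ≠ 0 ∨ v i ≠ 0)
    (hI : Invar n l) (hu : Avail n l u) (hv : Avail n l v) : Invar n (w :: l) := by
  classical
  obtain ⟨A1, A2, S, T, blk, C, hlen, hT, hsp, hblk, hmono, hC, hcls, hfull⟩ := hI
  have hwsp := hspan _ (avail_span (T : Set (Fin n → ℂ)) hu hsp) (avail_span (T : Set (Fin n → ℂ)) hv hsp)
  have hsp' : ∀ z ∈ w :: l, z ∈ Submodule.span ℚ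
      (Set.range (fun k : Fin n => (Pi.single k (1 : ℂ) : Fin n → ℂ)) ∪ ↑T) := by
    intro z hz
    rcases List.mem_cons.mp hz with rfl | hz
    · exact hwsp
    · exact hsp z hz
  by_cases hwf : FullSupp w
  · -- a new class of full support
    refine ⟨A1, A2 + 1, S, T, blk, insert w C, by simp; omega, hT, hsp', hblk, ?_, ?_, ?_, ?_⟩
    · intro z hz hzf
      rcases List.mem_cons.mp hz with rfl | hz
      · exact absurd hwf hzf
      · exact hmono z hz hzf
    · exact le_trans (card_insert_le _ _) (by omega)
    · intro z hz hzf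
      rcases List.mem_cons.mp hz with rfl | hz
      · exact ⟨z, mem_insert_self _ _, 1, by simp⟩
      · obtain ⟨c, hc, a, ha⟩ := hcls z hz hzf
        exact ⟨c, mem_insert_of_mem hc, a, ha⟩
    · intro _
      by_cases hex : ∃ z ∈ l, FullSupp z
      · exact hfull hex
      · have huf : ¬ FullSupp u := fun h => hex ⟨u, avail_full hn hu h, h⟩
        have hvf : ¬ FullSupp v := fun h => hex ⟨v, avail_full hn hv h, h⟩
        have hum := avail_mono blk hu hmono huf
        have hvm := avail_mono blk hv hmono hvf
        obtain ⟨i1, hi1⟩ : ∃ i, u i = 0 := by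
          by_contra h; push Not at h; exact huf h
        obtain ⟨i2, hi2⟩ : ∃ i, v i = 0 := by
          by_contra h; push Not at h; exact hvf h
        have hv1 : v i1 ≠ 0 := by
          rcases hw i1 (hwf i1) with h | h
          · exact absurd hi1 h
          · exact h
        have hu2 : u i2 ≠ 0 := by
          rcases hw i2 (hwf i2) with h | h
          · exact h
          · exact absurd hi2 h
        have hsub : image blk univ ⊆ {blk i2, blk i1} := by
          intro b hb
          rw [mem_image] at hb
          obtain ⟨i, _, rfl⟩ := hb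
          rcases hw i (hwf i) with h | h
          · simp [hum i i2 h hu2]
          · simp [hvm i i1 h hv1]
        exact le_trans (card_le_card hsub) card_le_two
  · by_cases hex : ∃ z ∈ l, FullSupp z
    · -- at most two blocks are left: merge everything
      have h2 := hfull hex
      refine ⟨A1 + 1, A2, S, T, fun _ => ⟨0, by omega⟩, C, by simp; omega, hT, hsp', ?_, ?_, hC,
        ?_, ?_⟩
      · have : (image (fun _ : Fin n => (⟨0, by omega⟩ : Fin n)) univ).card = 1 := by
          have hne : (univ : Finset (Fin n)).Nonempty := ⟨⟨0, by omega⟩, mem_univ _⟩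
          rw [image_const hne]
          simp
        omega
      · intro z _ _ i j _ _
        rfl
      · intro z hz hzf
        rcases List.mem_cons.mp hz with rfl | hz
        · exact absurd hzf hwf
        · exact hcls z hz hzf
      · intro _
        have : (image (fun _ : Fin n => (⟨0, by omega⟩ : Fin n)) univ).card = 1 := by
          have hne : (univ : Finset (Fin n)).Nonempty := ⟨⟨0, by omega⟩, mem_univ _⟩
          rw [image_const hne]
          simp
        omega
    · have huf : ¬ FullSupp u := fun h => hex ⟨u, avail_full hn hu h, h⟩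
      have hvf : ¬ FullSupp v := fun h => hex ⟨v, avail_full hn hv h, h⟩
      have hum := avail_mono blk hu hmono huf
      have hvm := avail_mono blk hv hmono hvf
      obtain ⟨blk', hb1, hb2, hb3, hb4⟩ := merge blk u v w hum hvm hw
      refine ⟨A1 + 1, A2, S, T, blk', C, by simp; omega, hT, hsp', by omega, ?_, hC, ?_, ?_⟩
      · intro z hz hzf
        rcases List.mem_cons.mp hz with rfl | hz
        · exact hb2
        · exact hb1 z (hmono z hz hzf)
      · intro z hz hzf
        rcases List.mem_cons.mp hz with rfl | hz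
        · exact absurd hzf hwf
        · exact hcls z hz hzf
      · rintro ⟨z, hz, hzf⟩
        rcases List.mem_cons.mp hz with rfl | hz
        · exact absurd hzf hwf
        · exact absurd ⟨z, hz, hzf⟩ hex

theorem step_smul {n : ℕ} (hn : 2 ≤ n) (l : List (Fin n → ℂ)) (c : ℂ) (u : Fin n → ℂ)
    (hI : Invar n l) (hu : Avail n l u) : Invar n ((c • u) :: l) := by
  classical
  obtain ⟨A1, A2, S, T, blk, C, hlen, hT, hsp, hblk, hmono, hC, hcls, hfull⟩ := hI
  have hfu : FullSupp (c • u) → FullSupp u := by
    intro h i hi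
    exact h i (by simp [hi])
  refine ⟨A1, A2, S + 1, insert (c • u) T, blk, C, by simp; omega,
    le_trans (card_insert_le _ _) (by omega), ?_, hblk, ?_, hC, ?_, ?_⟩
  · intro z hz
    rcases List.mem_cons.mp hz with rfl | hz
    · apply Submodule.subset_span
      right
      simp
    · refine Submodule.span_mono ?_ (hsp z hz)
      apply Set.union_subset_union_right
      simp
  · intro z hz hzf
    rcases List.mem_cons.mp hz with rfl | hz
    · by_cases huf : FullSupp u
      · have hc : c = 0 := by
          by_contra hc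
          exact hzf (fun i => by simpa using ⟨hc, huf i⟩)
        intro i j hi
        exact absurd (by simp [hc]) hi
      · have hum := avail_mono blk hu hmono huf
        intro i j hi hj
        apply hum i j
        · intro h; exact hi (by simp [h])
        · intro h; exact hj (by simp [h])
    · exact hmono z hz hzf
  · intro z hz hzf
    rcases List.mem_cons.mp hz with rfl | hz
    · obtain ⟨c0, hc0, a, ha⟩ := hcls u (avail_full hn hu (hfu hzf)) (hfu hzf)
      exact ⟨c0, hc0, c * a, by rw [ha, smul_smul]⟩
    · exact hcls z hz hzf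
  · rintro ⟨z, hz, hzf⟩
    rcases List.mem_cons.mp hz with rfl | hz
    · exact hfull ⟨u, avail_full hn hu (hfu hzf), hfu hzf⟩
    · exact hfull ⟨z, hz, hzf⟩

theorem invar_of_circuit {n : ℕ} (hn : 2 ≤ n) (l : List (Fin n → ℂ)) (h : Circuit n l) :
    Invar n l := by
  induction h with
  | nil =>
    refine ⟨0, 0, 0, ∅, id, ∅, by simp, by simp, by simp, by simp, by simp, by simp, by simp,
      by simp⟩
  | add l u v _ hu hv ih =>
    refine step_additive hn l u v (u + v) (fun M h1 h2 => M.add_mem h1 h2) ?_ ih hu hv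
    intro i hi
    by_contra h
    push Not at h
    exact hi (by simp [h.1, h.2])
  | sub l u v _ hu hv ih =>
    refine step_additive hn l u v (u - v) (fun M h1 h2 => M.sub_mem h1 h2) ?_ ih hu hv
    intro i hi
    by_contra h
    push Not at h
    exact hi (by simp [h.1, h.2])
  | smul l c u _ hu ih => exact step_smul hn l c u ih hu

/-- Every linear circuit (gates `u + v`, `u - v`, `c • u`, each of cost one) computing the
unnormalised discrete Fourier transform of order `n ≥ 2` has at least `3 n - d(n) - 2` gates,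
where `d(n)` is the number of divisors of `n`. -/
theorem result (n : ℕ) (hn : 2 ≤ n) (l : List (Fin n → ℂ)) (hl : Circuit n l)
    (hout : ∀ j : Fin n, Avail n l
      (fun k : Fin n => Complex.exp (2 * Real.pi * Complex.I / n) ^ ((j : ℕ) * (k : ℕ)))) :
    3 * n ≤ l.length + n.divisors.card + 2 := by
  classical
  set ζ : ℂ := Complex.exp (2 * Real.pi * Complex.I / n) with hζdef
  have hζ : IsPrimitiveRoot ζ n := Complex.isPrimitiveRoot_exp n (by omega)
  have hζ0 : ζ ≠ 0 := Complex.exp_ne_zero _
  obtain ⟨A1, A2, S, T, blk, C, hlen, hT, hsp, hblk, hmono, hC, hcls, hfull⟩ :=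
    invar_of_circuit hn l hl
  have hyfull : ∀ j : Fin n, FullSupp (fun k : Fin n => ζ ^ ((j : ℕ) * (k : ℕ))) :=
    fun j k => pow_ne_zero _ hζ0
  have hyl : ∀ j : Fin n, (fun k : Fin n => ζ ^ ((j : ℕ) * (k : ℕ))) ∈ l :=
    fun j => avail_full hn (hout j) (hyfull j)
  have hS : n ≤ T.card + n.divisors.card :=
    rank_bound n (by omega) ζ hζ T (fun j => hsp _ (hyl j))
  have hA1 : (image blk univ).card ≤ 2 := hfull ⟨_, hyl ⟨0, by omega⟩, hyfull _⟩
  have hA2 : n ≤ C.card := by
    choose c hc a ha using fun j : Fin n => hcls _ (hyl j) (hyfull j)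
    have hinj : Set.InjOn c (univ : Finset (Fin n)) := by
      intro j _ j' _ hjj
      have h0 := congrFun (ha j) ⟨0, by omega⟩
      have h0' := congrFun (ha j') ⟨0, by omega⟩
      have h1 := congrFun (ha j) ⟨1, by omega⟩
      have h1' := congrFun (ha j') ⟨1, by omega⟩
      simp only [mul_zero, pow_zero, mul_one, Pi.smul_apply, smul_eq_mul] at h0 h0' h1 h1'
      rw [← hjj] at h0' h1'
      have hc0 : c j ⟨0, by omega⟩ ≠ 0 := by
        intro h
        rw [h, mul_zero] at h0
        exact one_ne_zero h0
      have haa : a j = a j' := by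
        apply mul_right_cancel₀ hc0
        rw [← h0, ← h0']
      have hpow : ζ ^ (j : ℕ) = ζ ^ (j' : ℕ) := by
        rw [h1, h1', haa]
      exact Fin.ext (hζ.pow_inj j.2 j'.2 hpow)
    have := card_le_card_of_injOn c (fun j _ => hc j) hinj
    simpa using this
  omega

end Vale.Agent.Results.P344.ThreeN
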